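import Crest.Agent.N325.P2.Defs

/-!
# Row 325, P2 MERGE (helper4): the hypotheses of a merge
-/

set_option autoImplicit false
open Finset

namespace Crest.Agent.N325.P2

open Crest.Agent.N325.Mt Crest.Agent.N325.Bf

/-- the inner vertices `A` and the classes `C` (base class `b`) form a blossom closed by `o` -/
structure Mgb (G : Gf) (d : Dt) (o : ℕ) (A C : List ℕ) (b : ℕ) : Prop where
  ndA : A.Nodup
  ndC : C.Nodup
  card : C.length = A.length + 1
  inn : ∀ a ∈ A, a < G.n ∧ d.st.get a = 1 ∧ d.cls.get (d.mt.get a) ∈ C ∧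
    d.cls.get (d.mt.get a) ≠ b
  into : ∀ o' < G.nd, d.pr.get o' = true → G.hd o' ∈ A → d.cls.get (G.tl.get o') ∈ C
  cl : ∀ c ∈ C, isC G d c ∧ (c ≠ b → d.mt.get (d.bs.get c) ∈ A)
  hb : b ∈ C
  tl : d.st.get (G.tl.get o) = 2 ∧ d.cls.get (G.tl.get o) ∈ C
  hd : d.st.get (G.hd o) = 2 ∧ d.cls.get (G.hd o) ∈ C
  fc : FC (A.toFinset ∪ C.toFinset.biUnion fun c => (d.mem.get c).toFinset) G.E

/-- MERGE: the slack pays the search -/
def Cx.MergeSpec {T : Type} (X : Cx T)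
    (ev : S T → List ℕ → List ℕ → ℕ → List ℕ → R (S T)) : Prop :=
  ∀ s N o q A C b, X.Inv s N → X.Room s → X.Good s.2 N → s.2.Q = o :: q → Mgb X.G s.2 o A C b →
    Sp X.g (ev s A C b q) fun s' t => ∃ N', X.Inv s' N' ∧
      t + X.Tot s' N' + X.κ * (1000 * (A.length + 1)) ≤ X.Tot s N

end Crest.Agent.N325.P2
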