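import Crest.Agent.N325.Ip.Pot
import Crest.Agent.N325.Ip.Bar

/-!
# Row 325, P2 MERGE (helper4): contraction of a region of the network
-/

set_option autoImplicit false
open Finset

namespace Crest.Agent.N325.Mg

open Crest.Agent.N325.Ip

/-- `N'` arises from `N` by renaming the nodes along `ρ`, deleting loops, and replacing the sinks
`Sk` and the sources `Gh` of the node `t` by the single sink `k` -/
structure Ctr (N N' : Net) (ρ : ℕ → ℕ) (k t : ℕ) (Sk Gh : Finset ℕ) : Prop where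
  k_mem : k ∈ N'.E
  keep : ∀ e ∈ N'.E, e ≠ k → e ∈ N.E ∧ e ∉ Sk ∧ e ∉ Gh ∧ N'.X e = N.X e ∧
    N'.arc e = { N.arc e with a := ρ (N.arc e).a, b := ρ (N.arc e).b }
  ka : (N'.arc k).a = t
  kb : (N'.arc k).b = 0
  kx : N'.X k = ∑ e ∈ Sk, N.X e - ∑ e ∈ Gh, N.X e
  sk : ∀ e ∈ Sk, e ∈ N.E ∧ e ∉ Gh ∧ ρ (N.arc e).a = t ∧ ρ (N.arc e).b = 0
  gh : ∀ e ∈ Gh, e ∈ N.E ∧ ρ (N.arc e).a = 0 ∧ ρ (N.arc e).b = t
  k_sk : k ∈ Sk
  loop : ∀ e ∈ N.E, e ∉ N'.E → e ∉ Sk → e ∉ Gh → ρ (N.arc e).a = ρ (N.arc e).b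

variable {N N' : Net} {ρ : ℕ → ℕ} {k t : ℕ} {Sk Gh : Finset ℕ} {P : Pm} {B : Bn}

theorem Ctr.circ (h : Ctr N N' ρ k t Sk Gh) (c : N.Circ N.X) : N'.Circ N'.X := by
  intro z
  have h0 := c fun v => z (ρ v)
  have s1 : Sk ∪ Gh ⊆ N.E := union_subset (fun e k => (h.sk e k).1) fun e k => (h.gh e k).1
  rw [← sum_sdiff s1, sum_union (disjoint_left.2 fun e k => (h.sk e k).2.1)] at h0
  have e1 : ∑ e ∈ Sk, N.X e * (z (ρ (N.arc e).b) - z (ρ (N.arc e).a)) =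
      (∑ e ∈ Sk, N.X e) * (z 0 - z t) := by
    rw [sum_mul]
    exact sum_congr rfl fun e k => by rw [(h.sk e k).2.2.1, (h.sk e k).2.2.2]
  have e2 : ∑ e ∈ Gh, N.X e * (z (ρ (N.arc e).b) - z (ρ (N.arc e).a)) =
      (∑ e ∈ Gh, N.X e) * (z t - z 0) := by
    rw [sum_mul]
    exact sum_congr rfl fun e k => by rw [(h.gh e k).2.1, (h.gh e k).2.2]
  have e3 : ∑ e ∈ N'.E.erase k, N'.X e * (z (N'.arc e).b - z (N'.arc e).a) =
      ∑ e ∈ N.E \ (Sk ∪ Gh), N.X e * (z (ρ (N.arc e).b) - z (ρ (N.arc e).a)) := by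
    rw [← sum_subset (s₁ := N'.E.erase k) (s₂ := N.E \ (Sk ∪ Gh)) (fun e c => ?_)
      fun e c c' => ?_]
    · refine sum_congr rfl fun e c => ?_
      obtain ⟨-, -, -, x, y⟩ := h.keep e (mem_erase.1 c).2 (mem_erase.1 c).1
      rw [x, y]
    · obtain ⟨x, y, z, -⟩ := h.keep e (mem_erase.1 c).2 (mem_erase.1 c).1
      simp [x, y, z]
    · simp only [mem_sdiff, mem_union, not_or] at c
      rw [h.loop e c.1 (fun x => c' (mem_erase.2 ⟨fun y => c.2.1 (y ▸ h.k_sk), x⟩)) c.2.1 c.2.2,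
        sub_self, mul_zero]
  rw [← add_sum_erase _ _ h.k_mem, e3, h.ka, h.kb, h.kx]
  rw [e1, e2] at h0
  linear_combination h0

theorem Ctr.pot_le (h : Ctr N N' ρ k t Sk Gh) (p : ∀ e ∈ N.E, 0 ≤ bar P B (N.arc e) (N.X e)) :
    pot P B N' + ∑ e ∈ Sk, bar P B (N.arc e) (N.X e) ≤
      pot P B N + bar P B (N'.arc k) (N'.X k) := by
  have : ∑ e ∈ N'.E.erase k, bar P B (N'.arc e) (N'.X e) ≤
      ∑ e ∈ N.E \ Sk, bar P B (N.arc e) (N.X e) := by
    refine le_trans (sum_congr rfl fun e c => ?_).le (sum_le_sum_of_subset_of_nonneg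
      (s := N'.E.erase k) (fun e c => ?_) fun e c _ => p e (mem_sdiff.1 c).1)
    · obtain ⟨-, -, -, x, y⟩ := h.keep e (mem_erase.1 c).2 (mem_erase.1 c).1
      rw [x, y]; rfl
    · obtain ⟨x, y, -⟩ := h.keep e (mem_erase.1 c).2 (mem_erase.1 c).1
      exact mem_sdiff.2 ⟨x, y⟩
  rw [pot, pot, ← add_sum_erase _ _ h.k_mem,
    ← sum_sdiff (s₁ := Sk) (s₂ := N.E) fun e c => (h.sk e c).1]
  linarith

/-- the flow of an arc out of `t` is at most the flow of the only arc into `t` -/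
theorem le_entry (c : N.Circ N.X) (p : ∀ e ∈ N.E, 0 ≤ N.X e) {i : ℕ} (hk : k ∈ N.E)
    (ka : (N.arc k).a = t) (kb : (N.arc k).b ≠ t) (hi : i ∈ N.E)
    (u : ∀ e ∈ N.E, (N.arc e).b = t → e = i) : N.X k ≤ N.X i := by
  have h0 := c fun v => if v = t then 1 else 0
  have : ∑ e ∈ N.E, N.X e * ((if (N.arc e).b = t then 1 else 0) -
      if (N.arc e).a = t then 1 else 0) ≤
      ∑ e ∈ N.E, ((if e = i then N.X i else 0) - if e = k then N.X k else 0) := by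
    refine sum_le_sum fun e he => ?_
    have := p e he
    have := p i hi
    by_cases x : e = k
    · subst x; rw [if_neg kb, if_pos ka, if_pos rfl]; split_ifs <;> linarith
    · rw [if_neg x]
      by_cases y : (N.arc e).b = t
      · rw [if_pos y, if_pos (u e he y), u e he y]; split_ifs <;> linarith
      · rw [if_neg y]; split_ifs <;> linarith
  rw [h0, sum_sub_distrib, sum_ite_eq' , sum_ite_eq', if_pos hi, if_pos hk] at this
  linarith

/-- the log-sum inequality with a small loss of flow -/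
theorem log_merge {ι : Type*} (s : Finset ι) (c y : ι → ℝ) (hc : ∀ i ∈ s, 0 < c i)
    (hy : ∀ i ∈ s, 0 < y i) (hs : s.Nonempty) {g u : ℝ} (hu : 0 ≤ u) (h2 : 2 * g ≤ ∑ i ∈ s, y i)
    (hg : 2 * (∑ i ∈ s, c i) * g ≤ u * ∑ i ∈ s, y i) :
    (∑ i ∈ s, c i) * (Real.log (∑ i ∈ s, c i) - Real.log (∑ i ∈ s, y i - g)) ≤
      ∑ i ∈ s, c i * (Real.log (c i) - Real.log (y i)) + u := by
  have C := sum_pos hc hs
  have Y := sum_pos hy hs
  have h1 := log_sum s c y hc hy hs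
  set a := ∑ i ∈ s, c i
  set b := ∑ i ∈ s, y i
  have h3 : Real.log b - Real.log (b - g) ≤ u / a := by
    refine log_sub_le Y (by linarith) ?_
    have : g ≤ u / a * (b - g) := by
      rw [div_mul_eq_mul_div, le_div_iff₀ C]; nlinarith
    linarith
  have := mul_le_mul_of_nonneg_left h3 C.le
  rw [mul_div_cancel₀ _ C.ne'] at this
  nlinarith

end Crest.Agent.N325.Mg
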