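import Crest.Agent.N325.Mg.Defs
import Crest.Agent.N325.Mg.Net
import Crest.Agent.N325.P2.Util

/-!
# Row 325, P2 MERGE (helper4): the data after a merge, combinatorial invariants
-/

set_option autoImplicit false
open Finset

namespace Crest.Agent.N325.P2

open Crest.Agent.N325.Mt Crest.Agent.N325.Bf Crest.Agent.N325.Ip

/-- the members of the new class -/
def MgU (G : Gf) (d : Dt) (A C : List ℕ) (v : ℕ) : Prop :=
  v ∈ A ∨ (v < G.n ∧ d.st.get v = 2 ∧ d.cls.get v ∈ C)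

instance (G : Gf) (d : Dt) (A C : List ℕ) (v : ℕ) : Decidable (MgU G d A C v) :=
  inferInstanceAs (Decidable (_ ∨ _))

/-- the data `e` after the merge, new name `c` -/
structure MgD (G : Gf) (d e : Dt) (A C : List ℕ) (b c : ℕ) (q : List ℕ) : Prop where
  hc : c ∈ C
  st : ∀ v, e.st.get v = if v ∈ A then 2 else d.st.get v
  cls : ∀ v, e.cls.get v = if MgU G d A C v then c else d.cls.get v
  mem : ∀ x, x ≠ c → e.mem.get x = d.mem.get x
  nd : (e.mem.get c).Nodup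
  memc : ∀ v, v ∈ e.mem.get c ↔ MgU G d A C v
  cw : ∀ x, x ≠ c → e.cw.get x = d.cw.get x
  cwc : e.cw.get c = (e.mem.get c).length
  bs : ∀ x, e.bs.get x = if x = c then d.bs.get b else d.bs.get x
  mt : e.mt = d.mt
  pr : ∀ o < G.nd, e.pr.get o = true ↔ d.pr.get o = true ∧ G.hd o ∉ A
  Q : ∀ o, o ∈ e.Q ↔ o ∈ q ∨ (o < G.nd ∧ G.tl.get o ∈ A)

variable {G : Gf} {d e : Dt} {A C q : List ℕ} {o b c v : ℕ}

theorem Mgb.notA (h : Mgb G d o A C b) (k : d.st.get v ≠ 1) : v ∉ A := fun x => k (h.inn v x).2.1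
theorem Mgb.notC (h : Mgb G d o A C b) (k : d.st.get v ≠ 2) : v ∉ C := fun x => k (h.cl v x).1.2.1
theorem Mgb.U_iff (h : Mgb G d o A C b) (hv : v < G.n) (k : d.st.get v = 2) :
    MgU G d A C v ↔ d.cls.get v ∈ C :=
  ⟨fun x => (x.resolve_left (h.notA (by omega))).2.2, fun x => .inr ⟨hv, k, x⟩⟩
theorem Mgb.U_lt (h : Mgb G d o A C b) (k : MgU G d A C v) : v < G.n :=
  k.elim (fun x => (h.inn v x).1) fun x => x.1
theorem Mgb.U_mem (m : Cmb G d) (h : Mgb G d o A C b) (hc : c ∈ C) (k : v ∈ d.mem.get c) :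
    MgU G d A C v := by
  obtain ⟨x, y, z⟩ := (m.mem c (h.cl c hc).1 v).1 k
  exact .inr ⟨x, y, z ▸ hc⟩

theorem MgD.st2 (D : MgD G d e A C b c q) (k : d.st.get v = 2) : e.st.get v = 2 := by
  rw [D.st, k, ite_self]
theorem MgD.st_ne (D : MgD G d e A C b c q) (k : e.st.get v ≠ 2) :
    v ∉ A ∧ e.st.get v = d.st.get v := by
  have : v ∉ A := fun x => k (by rw [D.st, if_pos x])
  exact ⟨this, by rw [D.st, if_neg this]⟩
theorem MgD.stU (D : MgD G d e A C b c q) (k : MgU G d A C v) : e.st.get v = 2 :=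
  k.elim (fun x => by rw [D.st, if_pos x]) fun x => D.st2 x.2.1

theorem MgD.isC_iff (D : MgD G d e A C b c q) (h : Mgb G d o A C b) {x : ℕ} :
    isC G e x ↔ isC G d x ∧ (x ∈ C → x = c) := by
  have hc := (h.cl c D.hc).1
  unfold isC at *
  rw [D.cls, D.st]
  constructor
  · rintro ⟨a1, a2, a3⟩
    by_cases u : MgU G d A C x
    · rw [if_pos u] at a3; subst a3; exact ⟨hc, fun _ => rfl⟩
    · rw [if_neg u] at a3
      rw [if_neg fun y => u (.inl y)] at a2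
      exact ⟨⟨a1, a2, a3⟩, fun y => absurd (.inr ⟨a1, a2, a3.symm ▸ y⟩) u⟩
  · rintro ⟨⟨a1, a2, a3⟩, a4⟩
    refine ⟨a1, by rw [a2, ite_self], ?_⟩
    split_ifs with u
    · exact (a4 (a3 ▸ (h.U_iff a1 a2).1 u)).symm
    · exact a3

theorem MgD.isC_c (D : MgD G d e A C b c q) (h : Mgb G d o A C b) : isC G e c :=
  (D.isC_iff h).2 ⟨(h.cl c D.hc).1, fun _ => rfl⟩

/-- the mate of the base of `b` is not absorbed -/
theorem Mgb.top (m : Cmb G d) (h : Mgb G d o A C b) : d.mt.get (d.bs.get b) ∉ A := fun x => by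
  obtain ⟨y, -, z⟩ := (m.mem b (h.cl b h.hb).1 _).1 (m.bs b (h.cl b h.hb).1).1
  exact (h.inn _ x).2.2.2 (by rw [m.mt_mt y, z])

theorem MgD.cmb (m : Cmb G d) (h : Mgb G d o A C b) (D : MgD G d e A C b c q) : Cmb G e := by
  have old : ∀ x, isC G e x → x ≠ c → isC G d x ∧ x ∉ C := fun x k n =>
    ⟨((D.isC_iff h).1 k).1, fun y => n (((D.isC_iff h).1 k).2 y)⟩
  have memI : ∀ x, isC G e x → ∀ v, v ∈ e.mem.get x ↔ v < G.n ∧ e.st.get v = 2 ∧
      e.cls.get v = x := fun x k v => by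
    by_cases n : x = c
    · subst n
      rw [D.memc]
      refine ⟨fun u => ⟨h.U_lt u, D.stU u, by rw [D.cls, if_pos u]⟩, fun ⟨y1, y2, y3⟩ => ?_⟩
      by_contra u
      rw [D.cls, if_neg u] at y3
      rw [D.st, if_neg fun y => u (.inl y)] at y2
      exact u (.inr ⟨y1, y2, y3 ▸ D.hc⟩)
    · obtain ⟨k1, k2⟩ := old x k n
      rw [D.mem x n, m.mem x k1, D.cls]
      refine and_congr_right fun hv => ⟨fun ⟨y1, y2⟩ => ⟨D.st2 y1, ?_⟩, fun ⟨y1, y2⟩ => ?_⟩
      · rw [if_neg fun u => k2 (y2 ▸ (h.U_iff hv y1).1 u), y2]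
      · by_cases u : MgU G d A C v
        · rw [if_pos u] at y2; exact absurd y2.symm n
        · rw [if_neg u] at y2
          rw [D.st, if_neg fun y => u (.inl y)] at y1
          exact ⟨y1, y2⟩
  refine ⟨D.mt ▸ m.isM, fun v hv => ?_, fun v hv k => ?_, fun v hv k => ?_, fun v hv k => ?_,
    fun v hv k => ?_, fun x k => ?_, memI, fun x k => ?_, fun x k => ?_, fun x k v hv n => ?_,
    fun x k => ?_, fun o' ho k => ?_⟩
  · have := m.st_le v hv
    rw [D.st]; split_ifs <;> omega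
  · obtain ⟨x, y⟩ := D.st_ne k
    rw [D.cls, if_neg fun u => k (D.stU u), m.cls_ne v hv (y ▸ k)]
  · obtain ⟨x, y⟩ := D.st_ne (v := v) (by omega)
    obtain ⟨z, w⟩ := m.unl v hv (y ▸ k)
    rw [D.mt, D.st, if_neg (h.notA (by omega))]
    exact ⟨z, w⟩
  · obtain ⟨x, y⟩ := D.st_ne (v := v) (by omega)
    obtain ⟨z, w⟩ := m.inn v hv (y ▸ k)
    rw [D.mt, D.cls, D.bs]
    refine ⟨D.st2 z, ?_⟩
    by_cases u : MgU G d A C (d.mt.get v)
    · have u' := (h.U_iff (m.mt_lt hv) z).1 u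
      rw [if_pos u, if_pos rfl, ← w]
      by_contra n
      refine x (m.mt_mt hv ▸ w ▸ (h.cl _ u').2 fun y => n ?_)
      rw [y]
    · rw [if_neg u, if_neg fun y : d.cls.get (d.mt.get v) = c =>
        u ((h.U_iff (m.mt_lt hv) z).2 (y ▸ D.hc)), w]
  · rw [D.cls]
    split_ifs with u
    · exact D.isC_c h
    · rw [D.st, if_neg fun y => u (.inl y)] at k
      exact (D.isC_iff h).2 ⟨m.out v hv k, fun y => absurd ((h.U_iff hv k).2 y) u⟩
  · by_cases n : x = c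
    · exact n ▸ D.nd
    · rw [D.mem x n]; exact m.nodup x (old x k n).1
  · by_cases n : x = c
    · exact n ▸ D.cwc
    · rw [D.mem x n, D.cw x n]; exact m.cw x (old x k n).1
  · rw [D.mt, D.bs]
    split_ifs with n
    · obtain ⟨y, z⟩ := m.bs b (h.cl b h.hb).1
      refine ⟨n ▸ (D.memc _).2 (h.U_mem m h.hb y), z.imp id fun z => ?_⟩
      rw [D.st, if_neg (h.top m), z]
    · obtain ⟨k1, k2⟩ := old x k n
      obtain ⟨y, z⟩ := m.bs x k1
      refine ⟨D.mem x n ▸ y, z.imp id fun z => ?_⟩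
      obtain ⟨y1, -, y3⟩ := (m.mem x k1 _).1 y
      rw [D.st, if_neg fun w => k2 ?_, z]
      have := (h.inn _ w).2.2.1
      rwa [m.mt_mt y1, y3] at this
  · rw [D.mt]
    rw [D.bs] at n
    by_cases n' : x = c
    · subst n'
      rw [if_pos rfl] at n
      rw [D.memc] at hv ⊢
      rcases hv with y | ⟨y1, y2, y3⟩
      · obtain ⟨z1, z2, z3, -⟩ := h.inn v y
        have := (m.inn v z1 z2).1
        exact ⟨.inr ⟨m.mt_lt z1, this, z3⟩, fun w => by rw [w] at this; omega⟩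
      · have i := (h.cl _ y3).1
        by_cases w : v = d.bs.get (d.cls.get v)
        · have := (h.cl _ y3).2 fun z => n (z ▸ w)
          rw [← w] at this
          exact ⟨.inl this, fun z => h.notA (by omega) (z ▸ this)⟩
        · exact (m.inside _ i v ((m.mem _ i v).2 ⟨y1, y2, rfl⟩) w).imp (h.U_mem m y3) id
    · rw [if_neg n'] at n
      rw [D.mem x n'] at hv ⊢
      exact m.inside x (old x k n').1 v hv n
  · by_cases n : x = c
    · subst n
      convert h.fc using 1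
      ext v
      simp only [List.mem_toFinset, D.memc, mem_union, mem_biUnion]
      refine or_congr_right ⟨fun ⟨y1, y2, y3⟩ => ⟨_, y3, (m.mem _ (h.cl _ y3).1 v).2 ⟨y1, y2, rfl⟩⟩,
        fun ⟨y, y1, y2⟩ => ?_⟩
      obtain ⟨z1, z2, z3⟩ := (m.mem _ (h.cl _ y1).1 v).1 y2
      exact ⟨z1, z2, z3 ▸ y1⟩
    · rw [D.mem x n]; exact m.fc x (old x k n).1
  · obtain ⟨x, y⟩ := (D.pr o' ho).1 k
    obtain ⟨z1, z2, z3⟩ := m.pr o' ho x
    rw [D.mt, D.st (G.hd o'), if_neg y]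
    exact ⟨D.st2 z1, z2, z3⟩

theorem MgD.qok (w : G.WF) (h : Mgb G d o A C b) (D : MgD G d e A C b c q) (k : QOk G d)
    (hq : d.Q = o :: q) : QOk G e := by
  have ho : o < G.nd := k.lt o (hq ▸ List.mem_cons_self)
  have same : ∀ x y, x < G.n → y < G.n → d.st.get x = 2 → d.st.get y = 2 →
      (d.cls.get x = d.cls.get y ∨ (d.cls.get x ∈ C ∧ d.cls.get y ∈ C)) →
      e.st.get x = 2 ∧ e.cls.get x = e.cls.get y := fun x y hx hy sx sy z => by
    refine ⟨D.st2 sx, ?_⟩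
    simp only [D.cls, h.U_iff hx sx, h.U_iff hy sy]
    rcases z with z | z
    · rw [z]
    · rw [if_pos z.1, if_pos z.2]
  refine ⟨fun x y => ((D.Q x).1 y).elim (fun y => k.lt x (hq ▸ List.mem_cons_of_mem _ y))
    fun y => y.1, fun x hx => ?_⟩
  by_cases a : G.tl.get x ∈ A
  · exact .inl ((D.Q x).2 (.inr ⟨hx, a⟩))
  by_cases a' : G.hd x ∈ A
  · exact .inr (.inr ⟨D.stU (.inl a'), (D.Q _).2 (.inr ⟨w.rv_lt hx, a'⟩)⟩)
  by_cases s : d.st.get (G.tl.get x) = 2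
  swap
  · exact .inr (.inl (.inl (by rw [D.st, if_neg a]; exact s)))
  rcases k.cmp x hx with y | y | ⟨y, z⟩
  · rcases List.mem_cons.1 (hq ▸ y) with rfl | y
    · exact .inr (.inl (.inr (.inr (.inr (same _ _ (w.hd_lt hx) (w.tl_lt _ hx) h.hd.1 s
        (.inr ⟨h.hd.2, h.tl.2⟩))))))
    · exact .inl ((D.Q x).2 (.inl y))
  · rcases y with y | y | y | y
    · exact absurd s y
    · exact .inr (.inl (.inr (.inl ((D.pr x hx).2 ⟨y, a'⟩))))
    · exact .inr (.inl (.inr (.inr (.inl (D.mt ▸ y)))))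
    · exact .inr (.inl (.inr (.inr (.inr (same _ _ (w.hd_lt hx) (w.tl_lt _ hx) y.1 s
        (.inl y.2))))))
  · rcases List.mem_cons.1 (hq ▸ z) with z | z
    · have t1 := h.tl.2
      have t2 := h.hd.2
      rw [← z, Gf.tl_rv] at t1
      rw [← z, Gf.hd_rv] at t2
      exact .inr (.inl (.inr (.inr (.inr (same _ _ (w.hd_lt hx) (w.tl_lt _ hx) y s
        (.inr ⟨t1, t2⟩))))))
    · exact .inr (.inr ⟨D.st2 y, (D.Q _).2 (.inl z)⟩)

/-- the renaming of the nodes -/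
def mgR (A C : List ℕ) (c v : ℕ) : ℕ := if v ≠ 0 ∧ (v - 1 ∈ A ∨ v - 1 ∈ C) then c + 1 else v

theorem mgR_zero : mgR A C c 0 = 0 := by simp [mgR]
theorem mgR_pos (k : v ∈ A ∨ v ∈ C) : mgR A C c (v + 1) = c + 1 := by simp [mgR, k]
theorem mgR_neg (k : v ∉ A) (k' : v ∉ C) : mgR A C c (v + 1) = v + 1 := by simp [mgR, k, k']
theorem MgD.mgR_cls (m : Cmb G d) (h : Mgb G d o A C b) (D : MgD G d e A C b c q) (hv : v < G.n)
    (k : d.st.get v = 2) : mgR A C c (d.cls.get v + 1) = e.cls.get v + 1 := by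
  simp only [D.cls, h.U_iff hv k]
  split_ifs with u
  · exact mgR_pos (.inr u)
  · exact mgR_neg (h.notA (by rw [(m.out v hv k).2.1]; omega)) u

theorem Cmb.st_mt (m : Cmb G d) (hv : v < G.n) (k : d.st.get v = 1 ∨ d.mt.get v = v) :
    d.st.get (d.mt.get v) = 2 :=
  k.elim (fun k => (m.inn v hv k).1) fun k => k.symm ▸ (m.root hv k).1

theorem MgD.key {D₀ : ℕ} {K : Cf} {i : ℕ} (w : G.WF) (m : Cmb G d) (h : Mgb G d o A C b)
    (D : MgD G d e A C b c q) (this : has G e i) (n : i ≠ 5 * c + 2) :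
    has G d i ∧ ¬(i % 5 = 2 ∧ i / 5 ∈ C) ∧ ¬(i % 5 = 3 ∧ i / 5 ∈ A) ∧
      arcOf D₀ K G e i = { arcOf D₀ K G d i with
        a := mgR A C c (arcOf D₀ K G d i).a, b := mgR A C c (arcOf D₀ K G d i).b } := by
  obtain ⟨v, rfl | rfl | rfl | rfl | rfl⟩ := id_cases i
  · obtain ⟨x, y⟩ := has0.1 this
    obtain ⟨y, z⟩ := (D.pr v x).1 y
    obtain ⟨z1, z2, -⟩ := m.pr v x y
    refine ⟨has0.2 ⟨x, y⟩, by omega, by omega, ?_⟩
    simp only [arcOf0, aP, capA, D.mgR_cls m h (w.tl_lt v x) z1, mgR_neg z (h.notC z2)]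
  · obtain ⟨x, y⟩ := has1.1 this
    rw [D.mt] at y
    have y' : d.st.get v = 1 ∨ d.mt.get v = v :=
      y.imp (fun y => (D.st_ne (v := v) (by omega)).2.symm.trans y) id
    refine ⟨has1.2 ⟨x, y'⟩, by omega, by omega, ?_⟩
    simp only [arcOf1, aE, capA, D.mt, D.mgR_cls m h (m.mt_lt x) (m.st_mt x y')]
    split_ifs with z
    · rw [mgR_zero]
    · have z1 := y.resolve_right z
      have z2 := y'.resolve_right z
      rw [mgR_neg (D.st_ne (v := v) (by omega)).1 (h.notC (by omega))]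
  · obtain ⟨x, y⟩ := (D.isC_iff h).1 (has2.1 this)
    have n' : v ≠ c := fun z => n (by rw [z])
    refine ⟨has2.2 x, fun z => n' (y (by
      simpa only [show (5 * v + 2) / 5 = v by omega] using z.2)), by omega, ?_⟩
    simp only [arcOf2, snkA, D.cw v n', mgR_zero,
      mgR_neg (h.notA (by rw [x.2.1]; omega)) fun z => n' (y z)]
  · obtain ⟨x, y⟩ := has3.1 this
    obtain ⟨y1, y2⟩ := D.st_ne y
    refine ⟨has3.2 ⟨x, y2 ▸ y⟩, by omega, fun z => y1 (by
      simpa only [show (5 * v + 3) / 5 = v by omega] using z.2), ?_⟩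
    simp only [arcOf3, aG, mgR_zero, mgR_neg y1 (h.notC (y2 ▸ y))]
  · obtain ⟨x, y⟩ := has4.1 this
    obtain ⟨y1, y2⟩ := D.st_ne (v := v) (by omega)
    refine ⟨has4.2 ⟨x, y2 ▸ y⟩, by omega, by omega, ?_⟩
    simp only [arcOf4, aU, mgR_zero, mgR_neg y1 (h.notC (by omega))]

/-- arcs that do not change -/
theorem MgD.off {D₀ : ℕ} {K : Cf} {L : List ℕ} (w : G.WF) (m : Cmb G d) (h : Mgb G d o A C b)
    (D : MgD G d e A C b c q) (l0 : ∀ x < G.nd, G.hd x ∈ A ∨ (d.st.get (G.tl.get x) = 2 ∧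
      d.cls.get (G.tl.get x) ∈ C ∧ d.cls.get (G.tl.get x) ≠ c) → 5 * x ∈ L)
    (l1 : 5 * d.mt.get (d.bs.get b) + 1 ∈ L) (l2 : ∀ x ∈ A, 5 * x + 1 ∈ L ∧ 5 * x + 3 ∈ L)
    (l3 : ∀ x ∈ C, 5 * x + 2 ∈ L) (i : ℕ) (n : i ∉ L) : (has G e i ↔ has G d i) ∧
      (has G d i → arcOf D₀ K G e i = arcOf D₀ K G d i) := by
  obtain ⟨v, rfl | rfl | rfl | rfl | rfl⟩ := id_cases i
  · rw [has0, has0, arcOf0, arcOf0]
    refine ⟨and_congr_right fun x => (D.pr v x).trans
      (and_iff_left fun y => n (l0 v x (.inl y))), fun ⟨x, y⟩ => ?_⟩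
    have z := (m.pr v x y).1
    simp only [aP, D.cls, h.U_iff (w.tl_lt v x) z]
    split_ifs with u
    · rw [show d.cls.get (G.tl.get v) = c from by_contra fun k => n (l0 v x (.inr ⟨z, u, k⟩))]
    · rfl
  · have a : v ∉ A := fun y => n (l2 v y).1
    rw [has1, has1, arcOf1, arcOf1, D.mt, D.st, if_neg a]
    refine ⟨Iff.rfl, fun ⟨x, y⟩ => ?_⟩
    have z := m.st_mt x y
    simp only [aE, D.mt, D.cls, h.U_iff (m.mt_lt x) z]
    rw [if_neg (c := d.cls.get (d.mt.get v) ∈ C) fun u => ?_]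
    have k : d.mt.get (d.bs.get (d.cls.get (d.mt.get v))) = v := by
      rcases y with y | y
      · rw [(m.inn v x y).2, m.mt_mt x]
      · rw [y, (m.root x y).2, y]
    by_cases k' : d.cls.get (d.mt.get v) = b
    · exact n (by rw [← k, k']; exact l1)
    · exact a (k ▸ (h.cl _ u).2 k')
  · have a : v ∉ C := fun y => n (l3 v y)
    rw [has2, has2, arcOf2, arcOf2, D.isC_iff h, D.cw v fun k => a (k ▸ D.hc)]
    exact ⟨and_iff_left fun k => absurd k a, fun _ => rfl⟩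
  · rw [has3, has3, arcOf3, arcOf3, D.st, if_neg fun y => n (l2 v y).2]
    exact ⟨Iff.rfl, fun _ => rfl⟩
  · rw [has4, has4, arcOf4, arcOf4, D.st]
    refine ⟨and_congr_right fun _ => ?_, fun _ => rfl⟩
    split_ifs with y
    · simp [(h.inn v y).2.1]
    · rfl

/-- the new network is a contraction of the old one -/
theorem MgD.ctr {D₀ : ℕ} {K : Cf} {N N' : Net} (w : G.WF) (m : Cmb G d) (h : Mgb G d o A C b)
    (D : MgD G d e A C b c q) (a : Arcs D₀ K G d N) (a1 : ∀ i, i ∈ N'.E ↔ has G e i)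
    (a2 : ∀ i ∈ N'.E, N'.arc i = arcOf D₀ K G e i)
    (a3 : ∀ i ∈ N'.E, i ≠ 5 * c + 2 → i ∈ N.E → N'.X i = N.X i)
    (a4 : N'.X (5 * c + 2) = (C.map fun x => N.X (5 * x + 2)).sum -
      (A.map fun x => N.X (5 * x + 3)).sum) :
    Mg.Ctr N N' (mgR A C c) (5 * c + 2) (c + 1) (C.toFinset.image fun x => 5 * x + 2)
      (A.toFinset.image fun x => 5 * x + 3) := by
  have k0 : 5 * c + 2 ∈ N'.E := (a1 _).2 (has2.2 (D.isC_c h))
  have s : ∀ i, i ∈ C.toFinset.image (fun x => 5 * x + 2) ↔ i % 5 = 2 ∧ i / 5 ∈ C := fun i => by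
    simp only [mem_image, List.mem_toFinset]
    exact ⟨fun ⟨x, y, z⟩ => ⟨by omega, by rwa [show i / 5 = x by omega]⟩,
      fun ⟨x, y⟩ => ⟨_, y, by omega⟩⟩
  have g : ∀ i, i ∈ A.toFinset.image (fun x => 5 * x + 3) ↔ i % 5 = 3 ∧ i / 5 ∈ A := fun i => by
    simp only [mem_image, List.mem_toFinset]
    exact ⟨fun ⟨x, y, z⟩ => ⟨by omega, by rwa [show i / 5 = x by omega]⟩,
      fun ⟨x, y⟩ => ⟨_, y, by omega⟩⟩
  refine ⟨k0, fun i hi n => ?_, by rw [a2 _ k0, arcOf2]; rfl, by rw [a2 _ k0, arcOf2]; rfl, ?_,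
    fun i hi => ?_, fun i hi => ?_, (s _).2 ⟨by omega, by
      rw [show (5 * c + 2) / 5 = c by omega]; exact D.hc⟩, fun i hi n n1 n2 => ?_⟩
  · have key := D.key (D₀ := D₀) (K := K) w m h ((a1 i).1 hi) n
    have hN := (a.mem i).2 key.1
    rw [s, g, a2 i hi, a.arc i hN]
    exact ⟨hN, key.2.1, key.2.2.1, a3 i hi n hN, key.2.2.2⟩
  · rw [a4, sum_image fun _ _ _ _ z => by simpa using z,
      sum_image fun _ _ _ _ z => by simpa using z, List.sum_toFinset _ h.ndC,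
      List.sum_toFinset _ h.ndA]
  · obtain ⟨x, y, rfl⟩ := mem_image.1 hi
    rw [List.mem_toFinset] at y
    have hN := (a.mem _).2 (has2.2 (h.cl x y).1)
    rw [g, a.arc _ hN, arcOf2]
    exact ⟨hN, by omega, mgR_pos (.inr y), mgR_zero⟩
  · obtain ⟨x, y, rfl⟩ := mem_image.1 hi
    rw [List.mem_toFinset] at y
    have hN := (a.mem _).2 (has3.2 ⟨(h.inn x y).1, by rw [(h.inn x y).2.1]; omega⟩)
    rw [a.arc _ hN, arcOf3]
    exact ⟨hN, mgR_zero, mgR_pos (.inl y)⟩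
  · rw [a1] at n
    rw [s] at n1
    rw [g] at n2
    rw [a.arc i hi]
    have := (a.mem i).1 hi
    obtain ⟨v, rfl | rfl | rfl | rfl | rfl⟩ := id_cases i
    · obtain ⟨x, y⟩ := has0.1 this
      have z : G.hd v ∈ A := by_contra fun z => n (has0.2 ⟨x, (D.pr v x).2 ⟨y, z⟩⟩)
      rw [arcOf0]
      exact (mgR_pos (.inr (h.into v x y z))).trans (mgR_pos (.inl z)).symm
    · obtain ⟨x, y⟩ := has1.1 this
      have z : v ∈ A := by_contra fun z => n (has1.2 ⟨x, by rwa [D.mt, D.st, if_neg z]⟩)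
      have z' : d.mt.get v ≠ v := fun u => h.notA (by rw [(m.root x u).1]; omega) z
      simp only [arcOf1, aE, capA, if_neg z']
      exact (mgR_pos (.inl z)).trans (mgR_pos (.inr (h.inn v z).2.2.1)).symm
    · exact absurd (has2.2 ((D.isC_iff h).2 ⟨has2.1 this, fun z => absurd ⟨by omega, by
        rwa [show (5 * v + 2) / 5 = v by omega]⟩ n1⟩)) n
    · obtain ⟨x, y⟩ := has3.1 this
      refine absurd (has3.2 ⟨x, ?_⟩) n
      rwa [D.st, if_neg fun z => n2 ⟨by omega, by rwa [show (5 * v + 3) / 5 = v by omega]⟩]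
    · obtain ⟨x, y⟩ := has4.1 this
      exact absurd (has4.2 ⟨x, by rwa [D.st, if_neg (h.notA (by omega))]⟩) n

end Crest.Agent.N325.P2
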