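import Crest.Agent.N325.Mg.Cmb
import Crest.Agent.N325.Lst.ListR

/-!
# Row 325, P2 MERGE (helper4): the programs on the data
-/

set_option autoImplicit false
open Finset

namespace Crest.Agent.N325.P2

open Crest.Agent.N325.Mt Crest.Agent.N325.Bf Crest.Agent.N325.Ip

/-- the ids `5 x + j`, in front of `m` -/
def idsL (j : ℕ) (l m : List ℕ) : R (List ℕ) :=
  foldL (fun x s => nat (5 * x + j) >>= fun e => pure (e :: s)) l m

/-- a guarded sum of integers -/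
def sumZ (f : ℕ → ℤ) (l : List ℕ) : R ℤ := foldL (fun x s => int (s + f x)) l 0

/-- new name, renamed vertices, darts into `A`, new data -/
def mgD (G : Gf) (d : Dt) (A C : List ℕ) (b : ℕ) (q : List ℕ) : R (ℕ × List ℕ × List ℕ × Dt) :=
  foldP (fun x c => if d.cw.get c < d.cw.get x then x else c) C b >>= fun c =>
  flatMapP (fun x => if x = c then [] else d.mem.get x) C >>= fun Rn =>
  revAppL A Rn >>= fun W =>
  setAllP (fun _ => 2) A d.st >>= fun st =>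
  setAllP (fun _ => c) W d.cls >>= fun cls =>
  revAppL W (d.mem.get c) >>= fun me =>
  lenL W >>= fun l => nat (d.cw.get c + l) >>= fun w =>
  flatMapP (fun v => G.adj.get v) A >>= fun O => mapP (fun x => rv x) O >>= fun O' =>
  setAllP (fun _ => false) O' d.pr >>= fun pr =>
  revAppL O q >>= fun Q =>
  pure (c, Rn, O', ⟨st, cls, d.mem.set c me, d.cw.set c w, d.bs.set c (d.bs.get b), d.mt, pr, Q⟩)

/-- the ids of the arcs that change -/
def mgL (G : Gf) (d : Dt) (A C : List ℕ) (b : ℕ) (Rn I : List ℕ) : R (List ℕ) :=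
  flatMapP (fun v => G.adj.get v) Rn >>= fun O => nat (5 * d.mt.get (d.bs.get b) + 1) >>= fun i =>
  idsL 0 I [i] >>= fun L1 => idsL 0 O L1 >>= fun L2 => idsL 1 A L2 >>= fun L3 =>
  idsL 3 A L3 >>= fun L4 => idsL 2 C L4

variable {g : Gl} {G : Gf} {d : Dt} {A C q Rn I : List ℕ} {o b : ℕ}

theorem sp_idsL {j : ℕ} {l m : List ℕ} (h : ∀ x ∈ l, 5 * x + j ≤ g.X) :
    Sp g (idsL j l m) fun r t => (∀ e ∈ m, e ∈ r) ∧ (∀ x ∈ l, 5 * x + j ∈ r) ∧
      r.length = l.length + m.length ∧ t ≤ l.length + 1 :=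
  (sp_foldL' (fun l' s => (∀ x ∈ l', 5 * x + j ≤ g.X) ∧ (∀ e ∈ m, e ∈ s) ∧
      (∀ x ∈ l, x ∈ l' ∨ 5 * x + j ∈ s) ∧ s.length + l'.length = l.length + m.length) (fun _ => 0)
    (fun a l' s ⟨k1, k2, k3, k4⟩ => sp_bind.2 (sp_nat.2 ⟨k1 a List.mem_cons_self,
      ⟨fun x i => k1 x (List.mem_cons_of_mem _ i), fun e i => List.mem_cons_of_mem _ (k2 e i),
        fun x i => by
          rcases k3 x i with y | y
          · exact (List.mem_cons.1 y).elim (fun y => .inr (y ▸ List.mem_cons_self)) .inl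
          · exact .inr (List.mem_cons_of_mem _ y),
        by simp only [List.length_cons] at k4 ⊢; omega⟩, le_rfl⟩))
    (l := l) (s := m) ⟨h, fun _ i => i, fun _ i => .inl i, add_comm _ _⟩).mono
    fun r t k => ⟨k.1.2.1, fun x i => (k.1.2.2.1 x i).resolve_left List.not_mem_nil,
      k.1.2.2.2, by simpa using k.2⟩

theorem sp_sumZ {f : ℕ → ℤ} {l : List ℕ} (h : ∀ x ∈ l, 0 ≤ f x) (k : (l.map f).sum ≤ g.X) :
    Sp g (sumZ f l) fun r t => r = (l.map f).sum ∧ t ≤ l.length + 1 :=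
  (sp_foldL' (fun l' s => (∀ x ∈ l', 0 ≤ f x) ∧ 0 ≤ s ∧ s + (l'.map f).sum = (l.map f).sum)
    (fun _ => 0) (fun a l' s ⟨k1, k2, k3⟩ => by
      rw [List.map_cons, List.sum_cons] at k3
      have a1 := k1 a List.mem_cons_self
      have a2 : ∀ x ∈ l', 0 ≤ f x := fun x i => k1 x (List.mem_cons_of_mem _ i)
      have a3 : 0 ≤ (l'.map f).sum := List.sum_nonneg fun y i => by
        obtain ⟨x, j, rfl⟩ := List.mem_map.1 i; exact a2 x j
      exact sp_int.2 ⟨by omega, ⟨a2, by omega, by omega⟩, le_rfl⟩) (l := l) (s := 0)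
    ⟨h, le_rfl, zero_add _⟩).mono fun r t k => ⟨by simpa using k.1.2.2, by simpa using k.2⟩

theorem foldl_argmax (f : ℕ → ℕ) (l : List ℕ) (b c : ℕ)
    (h : c = l.foldl (fun c x => if f c < f x then x else c) b) :
    (c = b ∨ c ∈ l) ∧ f b ≤ f c ∧ ∀ x ∈ l, f x ≤ f c := by
  induction l generalizing b with
  | nil => exact ⟨.inl h, h ▸ le_rfl, fun _ i => absurd i List.not_mem_nil⟩
  | cons a l ih =>
    obtain ⟨k1, k2, k3⟩ := ih _ h
    simp only [List.mem_cons, forall_eq_or_imp]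
    dsimp only at k1 k2
    split_ifs at k1 k2 with e
    · exact ⟨.inr k1, by omega, k2, k3⟩
    · exact ⟨k1.imp id .inr, k2, by omega, k3⟩

theorem Gf.WF.len_out (w : G.WF) (l : List ℕ) :
    (l.flatMap fun v => G.adj.get v).length ≤ 3 * l.length := by
  induction l with
  | nil => simp
  | cons a l ih =>
    have := w.deg a
    simp only [List.flatMap_cons, List.length_append, List.length_cons]; omega

theorem Gf.WF.mem_out (w : G.WF) {l : List ℕ} (h : ∀ v ∈ l, v < G.n) {x : ℕ} :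
    x ∈ (l.flatMap fun v => G.adj.get v) ↔ x < G.nd ∧ G.tl.get x ∈ l := by
  rw [List.mem_flatMap]
  exact ⟨fun ⟨v, a, k⟩ => have := (w.mem v (h v a) x).1 k; ⟨this.1, this.2 ▸ a⟩,
    fun ⟨a, k⟩ => ⟨_, k, (w.mem _ (h _ k) x).2 ⟨a, rfl⟩⟩⟩

theorem len_le_of_lt {l : List ℕ} {n : ℕ} (nd : l.Nodup) (h : ∀ v ∈ l, v < n) : l.length ≤ n := by
  rw [← List.toFinset_card_of_nodup nd]
  exact (card_le_card fun u k => mem_range.2 (h u (List.mem_toFinset.1 k))).trans (card_range _).le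

theorem sp_mgD (w : G.WF) (m : Cmb G d) (h : Mgb G d o A C b) (hX : G.n ≤ g.X) :
    Sp g (mgD G d A C b q) fun r t => MgD G d r.2.2.2 A C b r.1 q ∧
      (∀ x ∈ C, d.cw.get x ≤ d.cw.get r.1) ∧ r.2.1.Nodup ∧
      (∀ v, v ∈ r.2.1 ↔ v < G.n ∧ d.st.get v = 2 ∧ d.cls.get v ∈ C ∧ d.cls.get v ≠ r.1) ∧
      (∀ x, x ∈ r.2.2.1 ↔ x < G.nd ∧ G.hd x ∈ A) ∧ r.2.2.1.length ≤ 3 * A.length ∧
      r.2.2.2.Q.length ≤ q.length + 3 * A.length ∧ t ≤ 30 * (A.length + r.2.1.length + 1) := by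
  refine (sp_foldP _ _ _).bind fun c t0 ⟨e0, u0⟩ => ?_
  obtain ⟨c1, -, c2⟩ := foldl_argmax d.cw.get C b c e0
  have hc : c ∈ C := c1.elim (fun k => k ▸ h.hb) id
  have ic := (h.cl c hc).1
  refine (sp_flatMapP _ _).bind fun Rn t1 ⟨e1, u1⟩ => ?_
  rw [← e1] at u1
  have mR : ∀ v, v ∈ Rn ↔ v < G.n ∧ d.st.get v = 2 ∧ d.cls.get v ∈ C ∧ d.cls.get v ≠ c := fun v => by
    rw [e1, List.mem_flatMap]
    constructor
    · rintro ⟨x, a, k⟩
      split_ifs at k with n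
      · exact absurd k List.not_mem_nil
      · obtain ⟨y1, y2, rfl⟩ := (m.mem x (h.cl x a).1 v).1 k
        exact ⟨y1, y2, a, n⟩
    · rintro ⟨y1, y2, y3, y4⟩
      exact ⟨_, y3, by rw [if_neg y4]; exact (m.mem _ (h.cl _ y3).1 v).2 ⟨y1, y2, rfl⟩⟩
  have nR : Rn.Nodup := by
    rw [e1, List.nodup_flatMap]
    refine ⟨fun x a => ?_, h.ndC.pairwise_of_forall_ne fun x a y a' n => ?_⟩
    · split_ifs
      · exact List.nodup_nil
      · exact m.nodup x (h.cl x a).1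
    · refine fun v k k' => n ?_
      dsimp only at k k'
      split_ifs at k k' <;> first | exact absurd k List.not_mem_nil | exact absurd k' List.not_mem_nil | skip
      exact ((m.mem x (h.cl x a).1 v).1 k).2.2.symm.trans ((m.mem y (h.cl y a').1 v).1 k').2.2
  refine (sp_revAppL _ _).bind fun W t2 ⟨e2, u2⟩ => ?_
  have mW : ∀ v, v ∈ W ↔ v ∈ A ∨ v ∈ Rn := fun v => by simp [e2]
  have lW : W.length = A.length + Rn.length := by simp [e2]
  have mE : ∀ v, v ∈ W.reverse ++ d.mem.get c ↔ MgU G d A C v := fun v => by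
    rw [List.mem_append, List.mem_reverse, mW, mR, m.mem c ic, or_assoc]
    refine or_congr_right ⟨fun k => k.elim (fun k => ⟨k.1, k.2.1, k.2.2.1⟩)
      fun k => ⟨k.1, k.2.1, k.2.2 ▸ hc⟩, fun k => ?_⟩
    exact (em (d.cls.get v = c)).elim (fun y => .inr ⟨k.1, k.2.1, y⟩)
      fun y => .inl ⟨k.1, k.2.1, k.2.2, y⟩
  have nE : (W.reverse ++ d.mem.get c).Nodup := by
    refine List.Nodup.append (List.nodup_reverse.2 ?_) (m.nodup c ic) fun v k k' => ?_
    · rw [e2]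
      exact List.Nodup.append (List.nodup_reverse.2 h.ndA) nR fun v k k' =>
        h.notA (by rw [((mR v).1 k').2.1]; omega) (List.mem_reverse.1 k)
    · obtain ⟨-, y, z⟩ := (m.mem c ic v).1 k'
      rcases (mW v).1 (List.mem_reverse.1 k) with k | k
      · exact h.notA (by omega) k
      · exact ((mR v).1 k).2.2.2 z
  have lE : (W.reverse ++ d.mem.get c).length = d.cw.get c + W.length := by
    rw [List.length_append, List.length_reverse, m.cw c ic, add_comm]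
  refine (sp_setAllP _ _ _).bind fun st t3 ⟨e3, u3⟩ => (sp_setAllP _ _ _).bind
    fun cls t4 ⟨e4, u4⟩ => (sp_revAppL _ _).bind fun me t5 ⟨e5, u5⟩ => (sp_lenL _).bind
    fun l t6 ⟨e6, u6⟩ => sp_bind.2 (sp_nat.2 ⟨?_, (sp_flatMapP _ _).bind
    fun O t7 ⟨e7, u7⟩ => (sp_mapP _ _).bind fun O' t8 ⟨e8, u8⟩ => (sp_setAllP _ _ _).bind
    fun pr t9 ⟨e9, u9⟩ => (sp_revAppL _ _).bind fun Q t10 ⟨e10, u10⟩ => ?_⟩)
  · rw [e6, ← lE]
    exact (len_le_of_lt nE fun v k => h.U_lt ((mE v).1 k)).trans hX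
  have lO : O.length ≤ 3 * A.length := e7 ▸ w.len_out A
  have mO : ∀ x, x ∈ O ↔ x < G.nd ∧ G.tl.get x ∈ A := fun x =>
    e7 ▸ w.mem_out fun v k => (h.inn v k).1
  have lO' : O'.length = O.length := by rw [e8, List.length_map]
  have mO' : ∀ x, x ∈ O' ↔ x < G.nd ∧ G.hd x ∈ A := fun x => by
    rw [e8, List.mem_map]
    refine ⟨fun ⟨y, a, k⟩ => ?_, fun ⟨a, k⟩ => ⟨rv x, (mO _).2 ⟨w.rv_lt a, k⟩, rv_rv x⟩⟩
    rw [← k, Gf.hd_rv]
    exact ⟨w.rv_lt ((mO y).1 a).1, ((mO y).1 a).2⟩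
  rw [← e7] at u7
  have := h.card
  refine ⟨⟨hc, e3, fun v => ?_, fun x n => Arr.get_set_ne _ n _, ?_, fun v => ?_,
    fun x n => Arr.get_set_ne _ n _, ?_, fun x => rfl, rfl, fun x a => ?_, fun x => ?_⟩,
    c2, nR, mR, mO', by dsimp only; omega, ?_, by dsimp only; omega⟩
  · change cls.get v = _
    simp only [e4, ← mE, List.mem_append, List.mem_reverse]
    by_cases k : v ∈ W
    · rw [if_pos k, if_pos (.inl k)]
    · rw [if_neg k]
      split_ifs with k'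
      · exact ((m.mem c ic v).1 (k'.resolve_left k)).2.2
      · rfl
  · simpa only [Arr.get_set_self, e5] using nE
  · simpa only [Arr.get_set_self, e5] using mE v
  · simp only [Arr.get_set_self, e5, e6, lE]
  · change pr.get x = true ↔ _
    simp only [e9, mO']
    by_cases k : G.hd x ∈ A <;> simp [k, a]
  · change x ∈ Q ↔ _
    rw [e10, List.mem_append, List.mem_reverse, mO, or_comm]
  · change Q.length ≤ _
    rw [e10, List.length_append, List.length_reverse]; omega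

theorem sp_mgL (w : G.WF) (m : Cmb G d) (h : Mgb G d o A C b) (hX : 15 * G.n + 5 ≤ g.X)
    (hR : ∀ v ∈ Rn, v < G.n) (hI : ∀ x ∈ I, x < G.nd) :
    Sp g (mgL G d A C b Rn I) fun L t => (∀ x ∈ I, 5 * x ∈ L) ∧
      (∀ x < G.nd, G.tl.get x ∈ Rn → 5 * x ∈ L) ∧ 5 * d.mt.get (d.bs.get b) + 1 ∈ L ∧
      (∀ x ∈ A, 5 * x + 1 ∈ L ∧ 5 * x + 3 ∈ L) ∧ (∀ x ∈ C, 5 * x + 2 ∈ L) ∧
      L.length ≤ I.length + 3 * Rn.length + 3 * A.length + 2 ∧
      t ≤ I.length + 11 * (Rn.length + A.length + 1) := by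
  have nd := w.nd_le
  have cd := h.card
  have i0 := m.mt_lt ((m.mem b (h.cl b h.hb).1 _).1 (m.bs b (h.cl b h.hb).1).1).1
  refine (sp_flatMapP _ _).bind fun O t0 ⟨e0, u0⟩ => ?_
  rw [← e0] at u0
  have lO : O.length ≤ 3 * Rn.length := e0 ▸ w.len_out Rn
  have mO : ∀ x, x ∈ O ↔ x < G.nd ∧ G.tl.get x ∈ Rn := fun x => e0 ▸ w.mem_out hR
  refine sp_bind.2 (sp_nat.2 ⟨by omega, (sp_idsL fun x k => by have := hI x k; omega).bind
    fun L1 t1 ⟨a1, b1, c1, u1⟩ => (sp_idsL fun x k => by have := ((mO x).1 k).1; omega).bind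
    fun L2 t2 ⟨a2, b2, c2, u2⟩ => (sp_idsL fun x k => by have := (h.inn x k).1; omega).bind
    fun L3 t3 ⟨a3, b3, c3, u3⟩ => (sp_idsL fun x k => by have := (h.inn x k).1; omega).bind
    fun L4 t4 ⟨a4, b4, c4, u4⟩ => (sp_idsL fun x k => by have := (h.cl x k).1.1; omega).mono
    fun L5 t5 ⟨a5, b5, c5, u5⟩ => ⟨fun x k => a5 _ (a4 _ (a3 _ (a2 _ (b1 x k)))),
      fun x k k' => a5 _ (a4 _ (a3 _ (b2 x ((mO x).2 ⟨k, k'⟩)))),
      a5 _ (a4 _ (a3 _ (a2 _ (a1 _ List.mem_cons_self)))),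
      fun x k => ⟨a5 _ (a4 _ (b3 x k)), a5 _ (b4 x k)⟩, b5, ?_, ?_⟩⟩)
  · rw [List.length_singleton] at c1; omega
  · omega

end Crest.Agent.N325.P2
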