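import Crest.Agent.N325.Mg.Prog
import Crest.Agent.N325.P2.Rp
import Crest.Agent.N325.Lst.ListImpl

/-!
# Row 325, P2 MERGE (helper4): the event is implementable
-/

set_option autoImplicit false

namespace Crest.Agent.N325.P2

open Crest.Agent.N325.Bf

variable {α T : Type} [Rp α] [Rp T]

@[fun_prop] theorem impl_idsL {j : α → ℕ} {l m : α → List ℕ} (hj : Pu true j) (hl : Pu true l)
    (hm : Pu true m) : Impl fun a => idsL (j a) (l a) (m a) := by
  unfold idsL; impl

@[fun_prop] theorem impl_sumZ {f : α → ℕ → ℤ} {l : α → List ℕ}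
    (hf : Pu false fun p : α × ℕ => f p.1 p.2) (hl : Pu true l) :
    Impl fun a => sumZ (f a) (l a) := by
  unfold sumZ; impl

@[fun_prop] theorem impl_mgD {G : α → Gf} {d : α → Dt} {A C q : α → List ℕ} {b : α → ℕ}
    (hG : Pu true G) (hd : Pu true d) (hA : Pu true A) (hC : Pu true C) (hb : Pu true b)
    (hq : Pu true q) : Impl fun a => mgD (G a) (d a) (A a) (C a) (b a) (q a) := by
  unfold mgD; impl

@[fun_prop] theorem impl_mgL {G : α → Gf} {d : α → Dt} {A C Rn I : α → List ℕ} {b : α → ℕ}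
    (hG : Pu true G) (hd : Pu true d) (hA : Pu true A) (hC : Pu true C) (hb : Pu true b)
    (hR : Pu true Rn) (hI : Pu true I) :
    Impl fun a => mgL (G a) (d a) (A a) (C a) (b a) (Rn a) (I a) := by
  unfold mgL; impl

theorem impl_merge : Impl fun p : Env T × S T × List ℕ × List ℕ × ℕ × List ℕ =>
    merge p.1 p.2.1 p.2.2.1 p.2.2.2.1 p.2.2.2.2.1 p.2.2.2.2.2 := by
  unfold merge; impl

end Crest.Agent.N325.P2
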