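import Crest.Agent.N325.Mg.Cmb
import Crest.Agent.N325.Lb.Bar

/-!
# Row 325, P2 MERGE (helper4): the potential
-/

set_option autoImplicit false
open Finset

namespace Crest.Agent.N325.P2

open Crest.Agent.N325.Mt Crest.Agent.N325.Bf Crest.Agent.N325.Ip

variable {G : Gf} {d e : Dt} {A C q Rn : List ℕ} {o b c v : ℕ}

/-- the size of the new class -/
theorem MgD.cw_eq (m : Cmb G d) (h : Mgb G d o A C b) (D : MgD G d e A C b c q) :
    e.cw.get c + 1 = ∑ x ∈ C.toFinset, (d.cw.get x + 1) := by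
  have e1 : (e.mem.get c).toFinset =
      A.toFinset ∪ C.toFinset.biUnion fun c => (d.mem.get c).toFinset := by
    ext v
    simp only [List.mem_toFinset, D.memc, mem_union, mem_biUnion]
    exact ⟨.imp id fun ⟨y1, y2, y3⟩ => ⟨_, y3, (m.mem _ (h.cl _ y3).1 v).2 ⟨y1, y2, rfl⟩⟩,
      fun k => k.elim .inl fun ⟨y, y1, y2⟩ => h.U_mem m y1 y2⟩
  rw [D.cwc, ← List.toFinset_card_of_nodup D.nd, e1, card_union_of_disjoint, card_biUnion,
    sum_add_distrib, sum_const, List.toFinset_card_of_nodup h.ndA,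
    List.toFinset_card_of_nodup h.ndC, h.card,
    sum_congr rfl fun x k => (List.toFinset_card_of_nodup
      (m.nodup x (h.cl x (List.mem_toFinset.1 k)).1)).trans
        (m.cw x (h.cl x (List.mem_toFinset.1 k)).1).symm]
  · simp only [smul_eq_mul, mul_one]; exact (add_assoc _ _ _).trans
      ((add_left_comm _ _ _).trans rfl)
  · intro x hx y hy n
    refine disjoint_left.2 fun v k k' => n ?_
    have hx := (h.cl x (List.mem_toFinset.1 hx)).1
    have hy := (h.cl y (List.mem_toFinset.1 hy)).1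
    exact ((m.mem x hx v).1 (List.mem_toFinset.1 k)).2.2.symm.trans
      ((m.mem y hy v).1 (List.mem_toFinset.1 k')).2.2
  · refine disjoint_left.2 fun v k k' => ?_
    obtain ⟨x, hx, k'⟩ := mem_biUnion.1 k'
    have := ((m.mem x (h.cl x (List.mem_toFinset.1 hx)).1 v).1 (List.mem_toFinset.1 k')).2.1
    exact h.notA (by omega) (List.mem_toFinset.1 k)

namespace Cx
variable {T : Type} {X : Cx T}

theorem nS_merge0 (h : Mgb X.G d o A C b) (D : MgD X.G d e A C b c q) : X.nS e 0 = X.nS d 0 := by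
  unfold nS
  congr 1
  refine filter_congr fun v _ => ?_
  rw [D.st]
  split_ifs with k
  · simp [(h.inn v k).2.1]
  · rfl

theorem nS_merge1 (h : Mgb X.G d o A C b) (D : MgD X.G d e A C b c q) :
    X.nS e 1 + A.length = X.nS d 1 := by
  unfold nS
  rw [← List.toFinset_card_of_nodup h.ndA, ← card_union_of_disjoint]
  · congr 1
    ext v
    simp only [mem_union, mem_filter, mem_range, List.mem_toFinset, D.st]
    by_cases k : v ∈ A
    · simp [k, (h.inn v k).1, (h.inn v k).2.1]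
    · simp [k]
  · refine disjoint_left.2 fun v k k' => ?_
    have := (mem_filter.1 k).2
    rw [D.st, if_pos (List.mem_toFinset.1 k')] at this
    omega

theorem Th_merge (H : X.Ok) (m : Cmb X.G d) (h : Mgb X.G d o A C b) (D : MgD X.G d e A C b c q)
    (big : ∀ x ∈ C, d.cw.get x ≤ d.cw.get c) (nd : Rn.Nodup)
    (hR : ∀ v ∈ Rn, v < X.G.n ∧ d.st.get v = 2 ∧ d.cls.get v ∈ C ∧ d.cls.get v ≠ c) :
    X.Th e + Rn.length ≤ X.Th d + X.C.K * A.length := by
  have cw := D.cw_eq m h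
  have up : Nat.log 2 (e.cw.get c) ≤ X.C.K := by
    have := ((D.cmb m h).cw_le (D.isC_c h)).2
    have := H.K
    exact (Nat.log_lt_of_lt_pow' (by rintro k; rw [k] at this; omega) (by omega)).le
  have le1 : ∀ x ∈ C, d.cw.get x ≤ e.cw.get c := fun x k => by
    have := single_le_sum (f := fun x => d.cw.get x + 1) (fun _ _ => Nat.zero_le _)
      (List.mem_toFinset.2 k)
    omega
  have le2 : ∀ x ∈ C, x ≠ c → d.cw.get x * 2 ≤ e.cw.get c := fun x k n => by
    have := sum_le_sum_of_subset (f := fun x => d.cw.get x + 1) (s := {x, c}) (t := C.toFinset)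
      (by simp [insert_subset_iff, k, D.hc])
    rw [sum_pair n] at this
    have := big x k
    omega
  have eR : Rn.length = ∑ v ∈ range X.G.n, if v ∈ Rn then 1 else 0 := by
    rw [← card_filter, ← List.toFinset_card_of_nodup nd]
    congr 1; ext v; simpa using fun k => (hR v k).1
  have eA : X.C.K * A.length = ∑ v ∈ range X.G.n, if v ∈ A then X.C.K else 0 := by
    rw [← sum_filter, sum_const, smul_eq_mul, mul_comm, ← List.toFinset_card_of_nodup h.ndA]
    congr 2; ext v; simpa using fun k => (h.inn v k).1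
  rw [Th, Th, sum_filter, sum_filter, eR, eA, ← sum_add_distrib, ← sum_add_distrib]
  refine sum_le_sum fun v hv => ?_
  rw [mem_range] at hv
  by_cases a : v ∈ A
  · rw [if_neg fun k : v ∈ Rn => h.notA (by rw [(hR v k).2.1]; omega) a, if_pos a]
    split_ifs <;> omega
  rw [if_neg a, D.st, if_neg a]
  by_cases s : d.st.get v = 2
  swap
  · rw [if_neg s, if_neg s, if_neg fun k : v ∈ Rn => s (hR v k).2.1]
  rw [if_pos s, if_pos s, D.cls]
  simp only [h.U_iff hv s]
  by_cases u : d.cls.get v ∈ C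
  · rw [if_pos u]
    split_ifs with r
    · have := Nat.log_mono_right (b := 2) (le2 _ u (hR v r).2.2.2)
      rw [Nat.log_mul_base one_lt_two (by have := (m.cw_le (h.cl _ u).1).1; omega)] at this
      omega
    · have := Nat.log_mono_right (b := 2) (le1 _ u)
      omega
  · rw [if_neg u, if_neg fun r : v ∈ Rn => u (hR v r).2.2.1,
      D.cw (d.cls.get v) fun k => u (k ▸ D.hc)]

theorem offs_merge (h : Mgb X.G d o A C b) (D : MgD X.G d e A C b c q) :
    X.offs e + ∑ x ∈ C.toFinset,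
        (X.C.Z * (d.cw.get x + 1) : ℝ) * (lM X.P X.Bd - Real.log (d.cw.get x + 1)) =
      X.offs d + (X.C.Z * (e.cw.get c + 1) : ℝ) * (lM X.P X.Bd - Real.log (e.cw.get c + 1)) := by
  have e1 : (range X.G.n).filter (isC X.G e) =
      insert c ((range X.G.n).filter (isC X.G d) \ C.toFinset) := by
    ext x
    simp only [mem_filter, mem_range, mem_insert, mem_sdiff, List.mem_toFinset, D.isC_iff h]
    have := (h.cl c D.hc).1
    constructor
    · rintro ⟨x1, x2, x3⟩
      exact (em (x ∈ C)).imp x3 fun k => ⟨⟨x1, x2⟩, k⟩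
    · rintro (rfl | ⟨x1, x2⟩)
      · exact ⟨this.1, this, fun _ => rfl⟩
      · exact ⟨x1.1, x1.2, fun k => absurd k x2⟩
  have s : C.toFinset ⊆ (range X.G.n).filter (isC X.G d) := fun x k =>
    have := (h.cl x (List.mem_toFinset.1 k)).1
    mem_filter.2 ⟨mem_range.2 this.1, this⟩
  rw [offs, offs, nS_merge0 h D, e1, sum_insert (by simp [D.hc]), ← sum_sdiff s,
    sum_congr rfl (g := fun x => (X.C.Z * (d.cw.get x + 1) : ℝ) *
      (lM X.P X.Bd - Real.log (d.cw.get x + 1))) fun x k => by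
        rw [D.cw x fun y => (mem_sdiff.1 k).2 (List.mem_toFinset.2 (y ▸ D.hc))]]
  ring

/-- the flow of the new sink -/
theorem merge_flow {N : Net} (m : Cmb X.G d) (h : Mgb X.G d o A C b)
    (D : MgD X.G d e A C b c q) (k : Calm X.P.D X.C X.G d N)
    (gh : ∀ a ∈ A, (X.C.Ph * X.C.Z : ℤ) * N.X (5 * a + 3) ≤ X.P.D) :
    ((e.cw.get c + 1) * X.P.D : ℤ) ≤ 2 * X.C.Ph * ∑ x ∈ C.toFinset, N.X (5 * x + 2) ∧
      (X.C.Ph * X.C.Z : ℤ) * ∑ x ∈ A.toFinset, N.X (5 * x + 3) ≤ A.length * X.P.D ∧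
      A.length ≤ e.cw.get c := by
  refine ⟨?_, ?_, ?_⟩
  · have := congrArg (Nat.cast : ℕ → ℤ) (D.cw_eq m h)
    push_cast at this
    rw [this, sum_mul, mul_sum]
    exact sum_le_sum fun x hx => k.snk x (h.cl x (List.mem_toFinset.1 hx)).1
  · rw [mul_sum, ← List.toFinset_card_of_nodup h.ndA, ← nsmul_eq_mul]
    exact sum_le_card_nsmul _ _ _ fun x hx => gh x (List.mem_toFinset.1 hx)
  · rw [D.cwc, ← List.toFinset_card_of_nodup h.ndA, ← List.toFinset_card_of_nodup D.nd]
    exact card_le_card fun v k => List.mem_toFinset.2 ((D.memc v).2 (.inl (List.mem_toFinset.1 k)))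

/-- the balance of the sinks -/
theorem merge_bar {N : Net} {s : Ip.St T} (H : X.Ok) (m : Cmb X.G d) (h : Mgb X.G d o A C b)
    (D : MgD X.G d e A C b c q) (i : X.I s N) (a : Arcs X.P.D X.C X.G d N)
    (k : Calm X.P.D X.C X.G d N) (gh : ∀ a ∈ A, (X.C.Ph * X.C.Z : ℤ) * N.X (5 * a + 3) ≤ X.P.D)
    {x : ℤ} (hx : x = ∑ x ∈ C.toFinset, N.X (5 * x + 2) - ∑ x ∈ A.toFinset, N.X (5 * x + 3))
    (hB : 100 * x ≤ X.C.M) (big : Big X.P (snkA X.C c (e.cw.get c + 1)) x) :
    bar X.P X.Bd (snkA X.C c (e.cw.get c + 1)) x - X.offs e ≤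
      ∑ j ∈ C.toFinset.image (fun x => 5 * x + 2), bar X.P X.Bd (N.arc j) (N.X j) - X.offs d +
        (4 * A.length + 1) := by
  obtain ⟨f1, f2, f3⟩ := merge_flow m h D k gh
  have hA := H.arc (D.cmb m h) (has2.2 (D.isC_c h))
  rw [arcOf2] at hA
  have Z0 : (20000 : ℝ) ≤ X.C.Z := by exact_mod_cast H.Z_pos
  have D0 : (0 : ℝ) < X.P.D := by exact_mod_cast H.D_pos
  have P0 : (0 : ℝ) < X.C.Ph := by exact_mod_cast lt_of_lt_of_le (by norm_num) H.Ph
  have M0 : (0 : ℝ) < X.Bd.Mu := by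
    have := H.n_le_M; rw [← H.Mu]; exact_mod_cast (by omega : 0 < X.C.M)
  have mem : ∀ j ∈ C.toFinset, 5 * j + 2 ∈ N.E := fun j hj =>
    (a.mem _).2 (has2.2 (h.cl j (List.mem_toFinset.1 hj)).1)
  have pos : ∀ j ∈ C.toFinset, (0 : ℝ) < N.X (5 * j + 2) := fun j hj => by
    have := (Inv.pos H i (mem j hj)).1
    rw [a.arc _ (mem j hj), arcOf_o1, Nat.cast_zero, add_zero] at this
    exact_mod_cast this
  have lo : ∀ j ∈ C.toFinset, (X.C.Z * (d.cw.get j + 1) : ℝ) *
      (Real.log X.Bd.Mu - Real.log (N.X (5 * j + 2))) ≤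
      bar X.P X.Bd (N.arc (5 * j + 2)) (N.X (5 * j + 2)) := fun j hj => by
    have := (Lb.le_bar H.D_pos H.s0_pos (H.ip.view i _ (mem j hj)).2.1
      (Inv.pos H i (mem j hj)).1 (Inv.pos H i (mem j hj)).2).1
    refine le_trans (le_of_eq ?_) this
    rw [a.arc _ (mem j hj), arcOf2]
    simp [snkA]
  have W := congrArg (Nat.cast : ℕ → ℝ) (D.cw_eq m h)
  have g1 : ((e.cw.get c + 1) * X.P.D : ℝ) ≤
      2 * X.C.Ph * ∑ x ∈ C.toFinset, (N.X (5 * x + 2) : ℝ) := by exact_mod_cast f1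
  have g2 : (X.C.Ph * X.C.Z : ℝ) * ∑ x ∈ A.toFinset, (N.X (5 * x + 3) : ℝ) ≤
      A.length * X.P.D := by exact_mod_cast f2
  have g3 : (A.length : ℝ) ≤ e.cw.get c := by exact_mod_cast f3
  have g4 : (x : ℝ) = ∑ x ∈ C.toFinset, (N.X (5 * x + 2) : ℝ) -
      ∑ x ∈ A.toFinset, (N.X (5 * x + 3) : ℝ) := by exact_mod_cast hx
  push_cast at W
  have key := Mg.log_merge C.toFinset (fun j => (d.cw.get j + 1 : ℝ))
    (fun j => (N.X (5 * j + 2) : ℝ)) (fun _ _ => by positivity) pos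
    ⟨c, List.mem_toFinset.2 D.hc⟩ (g := ∑ x ∈ A.toFinset, (N.X (5 * x + 3) : ℝ))
    (u := 4 * A.length / X.C.Z) (by positivity) ?_ ?_
  · rw [← W, ← g4] at key
    have up : Real.log X.Bd.Mu - Real.log ((X.C.M : ℝ) - x) ≤ 1 := by
      have hB' : (100 * x : ℝ) ≤ X.Bd.Mu := by rw [← H.Mu]; exact_mod_cast hB
      rw [H.Mu]
      exact log_sub_le M0 (by linarith) (by linarith)
    have of := offs_merge h D
    have l : lM X.P X.Bd = Real.log X.Bd.Mu - Real.log X.P.D := Real.log_div M0.ne' D0.ne'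
    have s1 := sum_le_sum lo
    have s2 : ∑ j ∈ C.toFinset, (X.C.Z * (d.cw.get j + 1) : ℝ) *
        (Real.log X.Bd.Mu - Real.log (N.X (5 * j + 2))) = ∑ x ∈ C.toFinset,
        (X.C.Z * (d.cw.get x + 1) : ℝ) * (lM X.P X.Bd - Real.log (d.cw.get x + 1)) +
        X.C.Z * ∑ j ∈ C.toFinset, (d.cw.get j + 1 : ℝ) *
          (Real.log (d.cw.get j + 1) - Real.log (N.X (5 * j + 2))) +
        X.C.Z * (e.cw.get c + 1) * Real.log X.P.D := by
      rw [W, mul_sum, mul_sum, sum_mul, ← sum_add_distrib, ← sum_add_distrib]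
      exact sum_congr rfl fun j _ => by rw [l]; ring
    have key := mul_le_mul_of_nonneg_left key (by positivity : (0 : ℝ) ≤ X.C.Z)
    rw [mul_add, mul_div_cancel₀ _ (by positivity)] at key
    rw [big.bar_eq H.D_pos H.s0_pos hA, sum_image fun _ _ _ _ z => by simpa using z, barL]
    simp only [snkA]
    push_cast
    rw [l] at of s2
    simp only [add_zero, zero_mul, one_mul, zero_add]
    nlinarith
  · refine le_of_mul_le_mul_left ?_ (mul_pos P0 (by linarith : (0 : ℝ) < X.C.Z))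
    have : (4 * A.length * X.P.D : ℝ) ≤ X.C.Z * ((e.cw.get c + 1) * X.P.D) := by
      have : (4 * A.length : ℝ) ≤ X.C.Z * (e.cw.get c + 1) := by nlinarith
      nlinarith
    nlinarith
  · rw [← W, div_mul_eq_mul_div, le_div_iff₀ (by linarith)]
    refine le_of_mul_le_mul_left ?_ P0
    have a1 := mul_le_mul_of_nonneg_left g2 (by positivity : (0 : ℝ) ≤ 2 * (e.cw.get c + 1))
    have a2 := mul_le_mul_of_nonneg_left g1 (by positivity : (0 : ℝ) ≤ 2 * A.length)
    nlinarith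

end Cx

end Crest.Agent.N325.P2
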