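import Crest.Agent.N325.Mg.Dat
import Crest.Agent.N325.Mg.Pot
import Crest.Agent.N325.P2.App
import Crest.Agent.N325.P2.Dual2

/-!
# Row 325, P2 MERGE (helper4): the event
-/

set_option autoImplicit false
open Finset

namespace Crest.Agent.N325.P2

open Crest.Agent.N325.Tw Crest.Agent.N325.Mt Crest.Agent.N325.Bf Crest.Agent.N325.Ip

/-- **MERGE** the classes `C` and the inner vertices `A` -/
def merge {T : Type} (E : Env T) (s : S T) (A C : List ℕ) (b : ℕ) (q : List ℕ) : R (S T) :=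
  mgD E.G s.2 A C b q >>= fun r => mgL E.G s.2 A C b r.2.1 r.2.2.1 >>= fun L =>
  rd E s.1 s.2 L >>= fun u =>
  sumZ (fun x => u.2.get (5 * x + 2)) C >>= fun x => sumZ (fun x => u.2.get (5 * x + 3)) A >>= fun y =>
  int (x - y) >>= fun z => app E (u.1, s.2) r.2.2.2 L (u.2.set (5 * r.1 + 2) z)

namespace Cx
variable {T : Type} {X : Cx T} {d e : Dt} {A C q Rn : List ℕ} {o b c : ℕ}

theorem sum_le_B {l : List ℕ} {f : ℕ → ℤ} (h : X.Ok) (k : ∀ x ∈ l, f x ≤ X.C.B)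
    (n : l.length ≤ X.G.n) : 100 * (l.map f).sum ≤ X.C.M := by
  have a := List.sum_le_card_nsmul (l.map f) X.C.B fun y i => by
    obtain ⟨x, j, rfl⟩ := List.mem_map.1 i; exact k x j
  rw [List.length_map, nsmul_eq_mul] at a
  have : 100 * (l.length * X.C.B) ≤ X.C.M := le_trans (by
    rw [← mul_assoc]; exact Nat.mul_le_mul (by omega) (by omega)) h.M
  have : (100 * (l.length * X.C.B) : ℤ) ≤ X.C.M := by exact_mod_cast this
  omega

/-- the flow of the new sink is large -/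
theorem merge_lam {N : Net} (H : X.Ok) (m : Cmb X.G d) (h : Mgb X.G d o A C b)
    (D : MgD X.G d e A C b c q) (k : Calm X.P.D X.C X.G d N)
    (gh : ∀ a ∈ A, (X.C.Ph * X.C.Z : ℤ) * N.X (5 * a + 3) ≤ X.P.D) :
    (X.C.lam : ℤ) ≤ ∑ x ∈ C.toFinset, N.X (5 * x + 2) - ∑ x ∈ A.toFinset, N.X (5 * x + 3) := by
  obtain ⟨f1, f2, f3⟩ := merge_flow m h D k gh
  have Z0 : (20000 : ℤ) ≤ X.C.Z := by exact_mod_cast H.Z_pos
  have P0 : (20000 : ℤ) ≤ X.C.Ph * X.C.Z := by exact_mod_cast H.PZ_pos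
  have l0 : (20000 * (X.C.Ph * X.C.Z * X.C.lam) : ℤ) ≤ X.P.D := by exact_mod_cast H.lam_le
  have f4 : (A.length : ℤ) ≤ e.cw.get c := by exact_mod_cast f3
  have D0 : (0 : ℤ) ≤ X.P.D := Int.natCast_nonneg _
  have W0 : (0 : ℤ) ≤ e.cw.get c := Int.natCast_nonneg _
  have a1 := mul_le_mul_of_nonneg_left f1 (by omega : (0 : ℤ) ≤ X.C.Z)
  have a2 := mul_le_mul_of_nonneg_right Z0 (by positivity : (0 : ℤ) ≤ (e.cw.get c + 1) * X.P.D)
  have a3 := mul_le_mul_of_nonneg_right f4 D0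
  have a4 : (0 : ℤ) ≤ X.C.Ph * X.C.Z * X.C.lam := by positivity
  have a5 := mul_nonneg W0 D0
  refine le_of_mul_le_mul_left ?_ (by omega : (0 : ℤ) < X.C.Ph * X.C.Z)
  nlinarith

/-- the balance of the credits -/
theorem merge_Psi (H : X.Ok) (m : Cmb X.G d) (h : Mgb X.G d o A C b) (D : MgD X.G d e A C b c q)
    (big : ∀ x ∈ C, d.cw.get x ≤ d.cw.get c) (nd : Rn.Nodup)
    (hR : ∀ v ∈ Rn, v < X.G.n ∧ d.st.get v = 2 ∧ d.cls.get v ∈ C ∧ d.cls.get v ≠ c)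
    (hq : d.Q = o :: q) (lq : e.Q.length ≤ q.length + 3 * A.length) :
    X.Ψ e + X.offs e + (4 * A.length + 1) + (A.length + Rn.length + 1) + 1000 * (A.length + 1) ≤
      X.Ψ d + X.offs d := by
  have a1 := nS_merge0 h D
  have a2 := nS_merge1 h D
  have a3 := Th_merge H m h D big nd hR
  have a4 : X.C.Z * (4 * X.nS e 1 + e.Q.length) + X.Th e + (4 * A.length + 1) +
      (A.length + Rn.length + 1) + 1000 * (A.length + 1) ≤
      X.C.Z * (4 * X.nS d 1 + d.Q.length) + X.Th d := by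
    have z := H.Z.1
    have b1 := Nat.mul_le_mul_left X.C.Z (show 4 * X.nS e 1 + e.Q.length + (A.length + 1) ≤
      4 * X.nS d 1 + d.Q.length by rw [hq, List.length_cons]; omega)
    have b2 := Nat.mul_le_mul_right (A.length + 1) (show X.C.K + 2000 ≤ X.C.Z by omega)
    rw [mul_add] at b1
    nlinarith
  have a5 := (Nat.cast_le (α := ℝ)).2 a4
  push_cast at a5
  simp only [Ψ, a1, D.mt]
  linarith

/-- **MERGE** -/
theorem mergeSpec (h : X.Ok) : X.MergeSpec (merge X.toEnv) := by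
  rintro ⟨s, d⟩ N o q A C b i rm gd hq mg
  have m := i.cmb
  have w := h.wf
  have nM := h.n_le_M
  have MX := h.M_le_X
  have nA : A.length ≤ X.G.n := len_le_of_lt mg.ndA fun v k => (mg.inn v k).1
  have nC : C.length ≤ X.G.n := len_le_of_lt mg.ndC fun v k => (mg.cl v k).1.1
  refine (sp_mgD w m mg (by omega)).bind ?_
  rintro ⟨c, Rn, I, e⟩ t0 ⟨D, big, nR, mR, mI, lI, lQ, u0⟩
  dsimp only at D big nR mR mI lI lQ u0 hq m mg ⊢
  have nR' : Rn.length ≤ X.G.n := len_le_of_lt nR fun v k => ((mR v).1 k).1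
  refine (sp_mgL w m mg (by omega) (fun v k => ((mR v).1 k).1) fun x k => ((mI x).1 k).1).bind ?_
  rintro L t1 ⟨l0, l0', l1, l2, l3, lL, u1⟩
  have Rm := h.Rm
  refine (sp_rd h i.il i.arcs.mem (rm.le (by omega))).bind ?_
  rintro ⟨s1, x⟩ t2 ⟨il, vx, u2, -⟩
  dsimp only at il vx u2 ⊢
  have val : ∀ j ∈ L, j ∈ N.E → x.get j = N.X j := fun j a k => by rw [vx, if_pos ⟨a, k⟩]
  have sk : ∀ j ∈ C, 5 * j + 2 ∈ N.E := fun j k => (i.arcs.sink (mg.cl j k).1).1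
  have st1 : ∀ j ∈ A, d.st.get j ≠ 2 := fun j k => by rw [(mg.inn j k).2.1]; omega
  have gk : ∀ j ∈ A, 5 * j + 3 ∈ N.E := fun j k => (i.arcs.ghost (mg.inn j k).1 (st1 j k)).1
  have e1 : (C.map fun j => x.get (5 * j + 2)) = C.map fun j => N.X (5 * j + 2) :=
    List.map_congr_left fun j k => val _ (l3 j k) (sk j k)
  have e2 : (A.map fun j => x.get (5 * j + 3)) = A.map fun j => N.X (5 * j + 3) :=
    List.map_congr_left fun j k => val _ (l2 j k).2 (gk j k)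
  have b1 := sum_le_B h (fun j k => (i.lt_B h (sk j k)).2.le) nC
  have b2 := sum_le_B h (fun j k => (i.lt_B h (gk j k)).2.le) nA
  have b3 : 0 ≤ (A.map fun j => N.X (5 * j + 3)).sum := List.sum_nonneg fun y k => by
    obtain ⟨j, k', rfl⟩ := List.mem_map.1 k; exact (i.lt_B h (gk j k')).1.le
  refine (sp_sumZ (fun j k => ?_) (by rw [e1]; omega)).bind fun x1 t3 ⟨e3, u3⟩ =>
    (sp_sumZ (fun j k => ?_) (by rw [e2]; omega)).bind fun x2 t4 ⟨e4, u4⟩ => ?_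
  · rw [val _ (l3 j k) (sk j k)]; exact (i.lt_B h (sk j k)).1.le
  · rw [val _ (l2 j k).2 (gk j k)]; exact (i.lt_B h (gk j k)).1.le
  rw [e1] at e3
  rw [e2] at e4
  have gh : ∀ a ∈ A, (X.C.Ph * X.C.Z : ℤ) * N.X (5 * a + 3) ≤ X.P.D := fun a k =>
    i.ghost_le h gd (mg.inn a k).1 (st1 a k)
  have hz : x1 - x2 = ∑ j ∈ C.toFinset, N.X (5 * j + 2) - ∑ j ∈ A.toFinset, N.X (5 * j + 3) := by
    rw [e3, e4, List.sum_toFinset _ mg.ndC, List.sum_toFinset _ mg.ndA]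
  have lam := merge_lam h m mg D gd.2 gh
  rw [← hz] at lam
  have hB : 100 * (x1 - x2) ≤ X.C.M := by omega
  have bg : Big X.P (snkA X.C c (e.cw.get c + 1)) (x1 - x2) := h.big rfl lam (by
    have := h.lam_le'; have := h.BD_le
    change _ ≤ (X.C.M : ℤ); omega)
  have AU : (100 : ℝ) ≤ X.k.AU := by exact_mod_cast h.AU
  have LL : (L.length : ℝ) ≤ 10 * (X.G.n + 1) := by exact_mod_cast (by omega : L.length ≤ 10 * (X.G.n + 1))
  have L0 : (0 : ℝ) ≤ L.length := Nat.cast_nonneg _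
  refine sp_bind.2 (sp_int.2 ⟨by omega, (sp_app0 h il i.arcs (D.cmb m mg) ?_
    (D.off w m mg (fun j a k => k.elim (fun k => l0 j ((mI j).2 ⟨a, k⟩))
      fun k => l0' j a ((mR _).2 ⟨w.tl_lt j a, k⟩)) l1 l2 l3) fun j a k => ?_).mono ?_⟩)
  · have a1 := phi_le_Pt (X := X) (s := s1)
    have a2 : (100 * (X.G.n + 1) : ℝ) ≤ X.Rm := by exact_mod_cast Rm
    have a3 := mul_le_mul_of_nonneg_right a2 (by positivity : (0 : ℝ) ≤ 2 * X.k.AU)
    have a4 := mul_le_mul_of_nonneg_left LL (by positivity : (0 : ℝ) ≤ 4 * X.k.AU + 3)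
    have a5 : (0 : ℝ) ≤ t2 := Nat.cast_nonneg _
    have a6 : (0 : ℝ) ≤ X.G.n := Nat.cast_nonneg _
    have a7 := mul_le_mul_of_nonneg_right AU (by positivity : (0 : ℝ) ≤ X.G.n + 1)
    unfold Room at rm
    dsimp only at rm
    nlinarith
  · by_cases n : j = 5 * c + 2
    · rw [n, Arr.get_set_self, arcOf2]; exact h.dom bg
    · obtain ⟨k1, -, -, k2⟩ := D.key (D₀ := X.P.D) (K := X.C) w m mg k n
      have hj := (i.arcs.mem j).2 k1
      have := (h.ip.view i.il.1 j hj).2.2.1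
      rw [i.arcs.arc j hj] at this
      rw [Arr.get_set_ne _ n, val j a hj, k2]; exact this
  rintro ⟨s2, e'⟩ t5 ⟨rfl, N', il', a1, a2, -, u5, -⟩
  dsimp only at il' a1 a2 u5 D lQ bg ⊢
  have k0 : 5 * c + 2 ∈ N'.E := (a1 _).2 (has2.2 (D.isC_c mg))
  have kx : N'.X (5 * c + 2) = x1 - x2 := by
    rw [(a2 _ k0).2, if_pos (l3 c D.hc), Arr.get_set_self]
  have ct := D.ctr w m mg i.arcs a1 (fun j k => (a2 j k).1) (fun j k n k' => by
    rw [(a2 j k).2]
    split_ifs with a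
    · rw [Arr.get_set_ne _ n, val j a k']
    · rfl) (by rw [kx, e3, e4])
  refine ⟨N', ⟨il', ⟨a1, fun j k => (a2 j k).1, ct.circ i.arcs.circ⟩, D.cmb m mg,
    D.qok w mg i.q hq⟩, ?_⟩
  have p1 := ct.pot_le (P := X.P) (B := X.Bd) fun j k => Inv.bar_nonneg h i.il.1 k
  rw [(a2 _ k0).1, arcOf2, kx] at p1
  have p2 := merge_bar h m mg D i.il.1 i.arcs gd.2 gh hz hB bg
  have p3 := merge_Psi h m mg D big nR (fun v k => (mR v).1 k) hq lQ
  have p4 := mul_le_mul_of_nonneg_left (show pot X.P X.Bd N' + X.Ψ e' +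
    (A.length + Rn.length + 1) + 1000 * (A.length + 1) ≤ pot X.P X.Bd N + X.Ψ d by linarith)
    (Nat.cast_nonneg (α := ℝ) X.κ)
  have cd := mg.card
  have p5 : ((t0 + t1 + t3 + t4 + 7 : ℕ) : ℝ) ≤ (60 * (A.length + Rn.length + 1) : ℕ) :=
    Nat.cast_le.2 (by omega)
  have p6 : (L.length : ℝ) ≤ (6 * (A.length + Rn.length + 1) : ℕ) := Nat.cast_le.2 (by omega)
  push_cast at p5 p6
  have p7 := mul_le_mul_of_nonneg_left p6 (by positivity : (0 : ℝ) ≤ 4 * X.k.AU + 7)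
  have p8 := mul_le_mul_of_nonneg_right h.AU_le
    (by positivity : (0 : ℝ) ≤ A.length + Rn.length + 1)
  have p9 : (0 : ℝ) ≤ X.k.AU * (A.length + Rn.length + 1) := by positivity
  simp only [Tot]
  push_cast
  nlinarith

end Cx

end Crest.Agent.N325.P2
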